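import Vale.Agent.P202.Mixed.Witt.Sharp

/-!
# P202 mixed characteristic: factorisation into untilts

A Witt vector whose first digit of unit value is the `D`-th is, modulo `p ^ n` with `n > D`, a
unit times `D` factors `p - [t]` with `t` nonzero in the maximal ideal.
-/

noncomputable section

namespace Vale.Agent.P202.Mixed.Witt

open WittVector Polynomial IsLocalRing

variable {p : ℕ} [hp : Fact p.Prime] {T : Type*} [CommRing T] [IsDomain T] [IsLocalRing T]

omit [IsDomain T] in
/-- A monic polynomial with constant term in the maximal ideal has a root there. -/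
theorem exists_root_mem (hroot : ∀ f : T[X], f.Monic → f.natDegree ≠ 0 → ∃ a, f.eval a = 0)
    (f : T[X]) (hf : f.Monic) (h0 : f.coeff 0 ∈ maximalIdeal T) :
    ∃ a ∈ maximalIdeal T, f.eval a = 0 := by
  induction hd : f.natDegree using Nat.strong_induction_on generalizing f with
  | _ d ih =>
    rcases eq_or_ne f.natDegree 0 with hd0 | hd0
    · rw [hf.natDegree_eq_zero.1 hd0, coeff_one_zero] at h0
      exact absurd isUnit_one ((mem_maximalIdeal _).1 h0)
    obtain ⟨a, ha⟩ := hroot f hf hd0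
    by_cases ham : a ∈ maximalIdeal T
    · exact ⟨a, ham, ha⟩
    obtain ⟨g, rfl⟩ := dvd_iff_isRoot.2 ha
    have hg : g.Monic := (monic_X_sub_C a).of_mul_monic_left hf
    have hg0 : g.coeff 0 ∈ maximalIdeal T := by
      rw [Polynomial.mul_coeff_zero, coeff_sub, coeff_X_zero, coeff_C_zero, zero_sub] at h0
      exact (Ideal.IsPrime.mem_or_mem inferInstance h0).resolve_left
        fun h => ham (neg_mem_iff.1 h)
    obtain ⟨b, hb, hgb⟩ := ih g.natDegree (by
      rw [← hd, (monic_X_sub_C a).natDegree_mul hg, natDegree_X_sub_C]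
      omega) g hg hg0 rfl
    exact ⟨b, hb, by rw [eval_mul, hgb, mul_zero]⟩

variable [CharP T p] [PerfectRing T p]

/-- One untilt factor, lowering the first unit digit by one. -/
theorem exists_untilt_factor (hroot : ∀ f : T[X], f.Monic → f.natDegree ≠ 0 → ∃ a, f.eval a = 0)
    {n D : ℕ} (hn : D + 1 < n) (f : WittVector p T) (hlow : ∀ i ≤ D, f.coeff i ∈ maximalIdeal T)
    (htop : IsUnit (f.coeff (D + 1))) (h0 : f.coeff 0 ≠ 0) :
    ∃ t ∈ maximalIdeal T, t ≠ 0 ∧ ∃ w : WittVector p T,
      (p : WittVector p T) ^ n ∣ f - ((p : WittVector p T) - (WittVector.teichmuller p) t) * w ∧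
      (∀ i < D, w.coeff i ∈ maximalIdeal T) ∧ IsUnit (w.coeff D) ∧ w.coeff 0 ≠ 0 := by
  obtain ⟨m, rfl⟩ : ∃ m, n = m + 1 := ⟨n - 1, by omega⟩
  have := isIntegrallyClosed_of_roots hroot
  let R : T[X] := (geom X (m + 1) * WittVector.map C f).coeff m
  have hR : ∀ a, R.eval a = (geom a (m + 1) * f).coeff m := fun a => by
    have h : WittVector.map (evalRingHom a) (WittVector.map C f) = f := by
      ext i
      simp [map_coeff]
    rw [← coe_evalRingHom, show R = (geom X (m + 1) * WittVector.map C f).coeff m from rfl,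
      ← map_coeff, map_mul, map_geom, h, coe_evalRingHom, eval_X]
  have hR0 : R.coeff 0 = f.coeff 0 ^ p ^ m := by
    rw [coeff_zero_eq_eval_zero, hR, geom_zero_eq, mul_comm]
    simpa using mul_pow_charP_coeff_succ f (m := 0) (n := m)
  obtain ⟨M, hMd, hMn⟩ : ∃ M, R.natDegree < M ∧ (m + 1) * p ^ m ≤ M :=
    ⟨R.natDegree + (m + 1) * p ^ m + 1, by omega, by omega⟩
  have hF : (X ^ M - R).Monic := monic_X_pow_sub
    (degree_le_natDegree.trans_lt (by exact_mod_cast hMd))
  have hF0 : (X ^ M - R).coeff 0 = -f.coeff 0 ^ p ^ m := by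
    rw [coeff_sub, coeff_X_pow, if_neg (by omega), hR0, zero_sub]
  obtain ⟨t, htm, hFt⟩ := exists_root_mem hroot _ hF (by
    rw [hF0]
    exact neg_mem (Ideal.pow_mem_of_mem _ (hlow 0 (Nat.zero_le _)) _ (pow_pos hp.out.pos _)))
  have ht : t ≠ 0 := by
    rintro rfl
    rw [← coeff_zero_eq_eval_zero, hF0, neg_eq_zero] at hFt
    exact h0 (eq_zero_of_pow_eq_zero hFt)
  rw [eval_sub, eval_X_pow, sub_eq_zero, hR] at hFt
  obtain ⟨w, hw⟩ := mem_tiltI_of_top ht (trunc_xi_geom t (m + 1) f)
    (by rw [Nat.add_sub_cancel, ← hFt]; exact pow_dvd_pow _ hMn)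
  have hw' : truncate (m + 1) f = truncate (m + 1) (((p : WittVector p T) - (WittVector.teichmuller p) t) * -w) := by
    rw [mul_neg, map_neg, hw, map_neg, neg_neg]
  refine ⟨t, htm, ht, -w, dvd_sub_of_trunc hw', ?_⟩
  have : CharP (ResidueField T) p := by
    refine (CharP.charP_iff_prime_eq_zero hp.out).2 ?_
    rw [← map_natCast (residue T), CharP.cast_eq_zero, map_zero]
  have hres := trunc_eq_iff.1 (trunc_map (residue T) hw')
  rw [map_mul (WittVector.map _), map_sub, map_natCast, map_teichmuller,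
    (residue_eq_zero_iff t).2 htm, teichmuller_zero, sub_zero] at hres
  have hstep : ∀ i, i + 1 < m + 1 →
      residue T (f.coeff (i + 1)) = residue T ((-w).coeff i) ^ p := fun i hi => by
    have := hres (i + 1) hi
    rwa [mul_comm, mul_charP_coeff_succ, map_coeff, map_coeff] at this
  refine ⟨fun i hi => ?_, ?_, fun hw0 => h0 ?_⟩
  · refine (residue_eq_zero_iff _).1 (eq_zero_of_pow_eq_zero (n := p) ?_)
    rw [← hstep i (by omega), residue_eq_zero_iff]
    exact hlow (i + 1) (by omega)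
  · refine (notMem_maximalIdeal).1 fun hmem => notMem_maximalIdeal.2 htop ?_
    rw [← residue_eq_zero_iff] at hmem ⊢
    rw [hstep D hn, hmem, zero_pow hp.out.ne_zero]
  · rw [trunc_eq_iff.1 hw' 0 (by omega), WittVector.mul_coeff_zero, hw0, mul_zero]

/-- The factorisation: `f` is a unit times `D` untilt factors modulo `p ^ n`. -/
theorem exists_untilt_prod (hroot : ∀ f : T[X], f.Monic → f.natDegree ≠ 0 → ∃ a, f.eval a = 0)
    {n : ℕ} : ∀ (D : ℕ) (f : WittVector p T), D < n → (∀ i < D, f.coeff i ∈ maximalIdeal T) →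
      IsUnit (f.coeff D) → (D ≠ 0 → f.coeff 0 ≠ 0) →
      ∃ (t : Fin D → T) (U : WittVector p T), IsUnit U ∧
        (∀ l, t l ≠ 0 ∧ t l ∈ maximalIdeal T) ∧
        (p : WittVector p T) ^ n ∣ f - U * ∏ l, ((p : WittVector p T) - (WittVector.teichmuller p) (t l)) := by
  intro D
  induction D with
  | zero =>
    intro f _ _ hf _
    exact ⟨finZeroElim, f, Extend.isUnit_of_coeff_zero hf, finZeroElim, by simp⟩
  | succ D ih =>
    intro f hn hlow htop h0
    obtain ⟨t, htm, ht, w, hdvd, hwlow, hwtop, hw0⟩ := exists_untilt_factor hroot hn f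
      (fun i hi => hlow i (by omega)) htop (h0 D.succ_ne_zero)
    obtain ⟨s, U, hU, hs, hdvd'⟩ := ih w (by omega) hwlow hwtop fun _ => hw0
    refine ⟨Fin.cons t s, U, hU, Fin.cases ⟨ht, htm⟩ hs, ?_⟩
    have h3 := dvd_add hdvd (dvd_mul_of_dvd_right hdvd' ((p : WittVector p T) - (WittVector.teichmuller p) t))
    rw [Fin.prod_univ_succ, Fin.cons_zero]
    simp only [Fin.cons_succ]
    convert h3 using 1
    ring

/-- The factorisation at every precision. -/
theorem exists_factor (hroot : ∀ f : T[X], f.Monic → f.natDegree ≠ 0 → ∃ a, f.eval a = 0)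
    (N : ℕ) {D : ℕ} (f : WittVector p T) (hlow : ∀ i < D, f.coeff i ∈ maximalIdeal T)
    (htop : IsUnit (f.coeff D)) (h0 : D ≠ 0 → f.coeff 0 ≠ 0) :
    ∃ (t : Fin D → T) (U : WittVector p T), IsUnit U ∧
      (∀ l, t l ≠ 0 ∧ t l ∈ maximalIdeal T) ∧
      (p : WittVector p T) ^ N ∣ f - U * ∏ l, ((p : WittVector p T) - (WittVector.teichmuller p) (t l)) := by
  obtain ⟨t, U, hU, ht, h⟩ := exists_untilt_prod hroot (n := N + D + 1) D f (by omega) hlow htop h0
  exact ⟨t, U, hU, ht, (pow_dvd_pow _ (by omega)).trans h⟩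

omit [IsDomain T] [IsLocalRing T] [CharP T p] [PerfectRing T p] in
/-- The factorised element lies in each untilt ideal. -/
theorem mem_tiltI_of_prod {n D : ℕ} {f U : WittVector p T} {t : Fin D → T}
    (h : (p : WittVector p T) ^ n ∣ f - U * ∏ l, ((p : WittVector p T) - (WittVector.teichmuller p) (t l))) (l : Fin D) :
    f ∈ Extend.tiltI (t l) n := by
  obtain ⟨b, hb⟩ := h
  obtain ⟨c, hc⟩ := Finset.dvd_prod_of_mem (fun l => (p : WittVector p T) - (WittVector.teichmuller p) (t l))
    (Finset.mem_univ l)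
  refine Extend.mem_tiltI.2 ⟨U * c, b, ?_⟩
  linear_combination -hb - U * hc

end Vale.Agent.P202.Mixed.Witt
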