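import Vale.Agent.P202.Mixed.Witt.Lift

/-!
# P202 mixed characteristic: sharp representatives

In a domain in which monic polynomials have roots, every Witt vector is congruent to a
Teichmüller element modulo `(p - [t], p ^ n)`: the top digit of the quotient is a monic
polynomial in the unknown, whose roots work.
-/

noncomputable section

namespace Vale.Agent.P202.Mixed.Witt

open WittVector Polynomial

variable {p : ℕ} [hp : Fact p.Prime] {T : Type*} [CommRing T] [IsDomain T]

/-- A domain in which monic polynomials have roots is integrally closed. -/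
theorem isIntegrallyClosed_of_roots
    (hroot : ∀ f : T[X], f.Monic → f.natDegree ≠ 0 → ∃ a, f.eval a = 0) :
    IsIntegrallyClosed T := by
  refine (isIntegrallyClosed_iff (FractionRing T)).2 fun {x} hx => ?_
  obtain ⟨f, hf, hfx⟩ := hx
  induction hd : f.natDegree using Nat.strong_induction_on generalizing f with
  | _ d ih =>
    rcases eq_or_ne f.natDegree 0 with h0 | h0
    · rw [hf.natDegree_eq_zero.1 h0, eval₂_one] at hfx
      exact absurd hfx one_ne_zero
    obtain ⟨a, ha⟩ := hroot f hf h0
    obtain ⟨g, rfl⟩ := dvd_iff_isRoot.2 ha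
    have hg : g.Monic := (monic_X_sub_C a).of_mul_monic_left hf
    rw [eval₂_mul, mul_eq_zero, eval₂_sub, eval₂_X, eval₂_C, sub_eq_zero] at hfx
    rcases hfx with h | h
    · exact ⟨a, h.symm⟩
    · refine ih g.natDegree ?_ g hg h rfl
      rw [← hd, (monic_X_sub_C a).natDegree_mul hg, natDegree_X_sub_C]
      omega

/-- A domain in which monic polynomials have roots is infinite. -/
theorem infinite_of_roots
    (hroot : ∀ f : T[X], f.Monic → f.natDegree ≠ 0 → ∃ a, f.eval a = 0) : Infinite T := by
  refine not_finite_iff_infinite.1 fun hfin => ?_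
  obtain ⟨_⟩ := nonempty_fintype T
  classical
  let g : T[X] := ∏ a : T, (X - C a)
  have hg : g.Monic := monic_prod_of_monic _ _ fun a _ => monic_X_sub_C a
  have hdeg : g.natDegree ≠ 0 := by
    rw [natDegree_prod_of_monic _ _ fun a _ => monic_X_sub_C a]
    simp [Fintype.card_ne_zero]
  obtain ⟨b, hb⟩ := hroot (g + 1) (hg.add_of_left (by
    rw [degree_one, degree_eq_natDegree hg.ne_zero]
    exact_mod_cast Nat.pos_of_ne_zero hdeg)) (by rwa [← C_1, natDegree_add_C])
  rw [eval_add, eval_one, show g.eval b = 0 from by
    rw [eval_prod]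
    exact Finset.prod_eq_zero (Finset.mem_univ b) (by simp), zero_add] at hb
  exact one_ne_zero hb

variable [CharP T p]

/-- The top digit of `geom t n * ([U] - G)`, as a polynomial in `U`. -/
def sharpPoly (t : T) (m : ℕ) (G : WittVector p T) : T[X] :=
  (geom (C t) (m + 1) * ((WittVector.teichmuller p) X - WittVector.map C G)).coeff m

/-- The top digit of `geom t n * (1 - [Y] G)`, as a polynomial in `Y`. -/
def sharpPoly' (t : T) (m : ℕ) (G : WittVector p T) : T[X] :=
  (geom (C t) (m + 1) * (1 - (WittVector.teichmuller p) X * WittVector.map C G)).coeff m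

omit [IsDomain T] [CharP T p] in
theorem map_sharpPoly {S : Type*} [CommRing S] (f : T →+* S) (t : T) (m : ℕ) (G : WittVector p T)
    (u : S) :
    eval₂ f u (sharpPoly t m G) = (geom (f t) (m + 1) * ((WittVector.teichmuller p) u - WittVector.map f G)).coeff m := by
  rw [← coe_eval₂RingHom, sharpPoly, ← map_coeff]
  have h : WittVector.map (eval₂RingHom f u) (WittVector.map C G) = WittVector.map f G := by
    ext i
    simp [map_coeff]
  simp [h, map_geom, map_teichmuller]

omit [IsDomain T] [CharP T p] in
theorem map_sharpPoly' {S : Type*} [CommRing S] (f : T →+* S) (t : T) (m : ℕ)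
    (G : WittVector p T) (u : S) :
    eval₂ f u (sharpPoly' t m G) =
      (geom (f t) (m + 1) * (1 - (WittVector.teichmuller p) u * WittVector.map f G)).coeff m := by
  rw [← coe_eval₂RingHom, sharpPoly', ← map_coeff]
  have h : WittVector.map (eval₂RingHom f u) (WittVector.map C G) = WittVector.map f G := by
    ext i
    simp [map_coeff]
  simp [h, map_geom, map_teichmuller]

omit [IsDomain T] in
theorem sharpPoly'_coeff_zero (t : T) (m : ℕ) (G : WittVector p T) :
    (sharpPoly' t m G).coeff 0 = 1 := by
  rw [coeff_zero_eq_eval_zero, ← eval₂_id, map_sharpPoly', teichmuller_zero, zero_mul, sub_zero,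
    mul_one, RingHom.id_apply, geom_coeff_top]

/-- The two polynomials are reverse to each other, so the first is monic of degree `p ^ m`. -/
theorem sharpPoly_monic [Infinite T] (t : T) (m : ℕ) (G : WittVector p T) :
    (sharpPoly t m G).Monic ∧ (sharpPoly t m G).natDegree = p ^ m := by
  set P := sharpPoly t m G with hP
  set P' := sharpPoly' t m G with hP'
  let f := algebraMap T (FractionRing T)
  have hf : Function.Injective f := IsFractionRing.injective _ _
  have : Infinite (FractionRing T) := Infinite.of_injective f hf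
  have e : X ^ P'.natDegree * P = X ^ p ^ m * P'.reverse := by
    apply map_injective f hf
    apply eq_of_infinite_eval_eq
    refine (Set.finite_singleton (0 : FractionRing T)).infinite_compl.mono fun u hu => ?_
    have hu : u ≠ 0 := hu
    have : Invertible u := invertibleOfNonzero hu
    change eval u (map f _) = eval u (map f _)
    rw [eval_map, eval_map, eval₂_mul, eval₂_mul, eval₂_X_pow, eval₂_X_pow]
    have h1 : eval₂ f u P = u ^ p ^ m * eval₂ f (⅟u) P' := by
      rw [hP, hP', map_sharpPoly, map_sharpPoly', ← coeff_teich_mul, mul_left_comm,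
        mul_sub ((WittVector.teichmuller p) u), mul_one, ← mul_assoc ((WittVector.teichmuller p) u), ← map_mul, mul_invOf_self, map_one, one_mul]
    have h2 : eval₂ f u P'.reverse = u ^ P'.natDegree * eval₂ f (⅟u) P' := by
      have h3 := eval₂_reverse_mul_pow f (⅟u) P'
      rw [invOf_invOf] at h3
      rw [← h3, mul_left_comm, ← mul_pow, mul_invOf_self, one_pow, mul_one]
    rw [h1, h2]
    ring
  have h0 : P'.coeff 0 ≠ 0 := by
    rw [sharpPoly'_coeff_zero]
    exact one_ne_zero
  have htr : P'.natTrailingDegree = 0 := natTrailingDegree_eq_zero.2 (Or.inr h0)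
  have hP'0 : P' ≠ 0 := fun h => h0 (by rw [h, coeff_zero])
  have hlc : P'.reverse.leadingCoeff = 1 := by
    rw [reverse_leadingCoeff, trailingCoeff, htr, sharpPoly'_coeff_zero]
  have hrev : P'.reverse.Monic := hlc
  have hP0 : P.Monic := by
    have := congrArg leadingCoeff e
    rwa [leadingCoeff_mul, leadingCoeff_mul, leadingCoeff_X_pow, leadingCoeff_X_pow, one_mul,
      one_mul, hlc] at this
  refine ⟨hP0, ?_⟩
  have := congrArg natDegree e
  rw [(monic_X_pow _).natDegree_mul hP0, (monic_X_pow _).natDegree_mul hrev, natDegree_X_pow,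
    natDegree_X_pow, reverse_natDegree, htr, Nat.sub_zero] at this
  omega

variable [PerfectRing T p]

/-- Every Witt vector has a Teichmüller representative modulo `(p - [t], p ^ n)`. -/
theorem sharp (hroot : ∀ f : T[X], f.Monic → f.natDegree ≠ 0 → ∃ a, f.eval a = 0) {t : T}
    (ht : t ≠ 0) (n : ℕ) (G : WittVector p T) : ∃ u : T, G - (WittVector.teichmuller p) u ∈ Extend.tiltI t n := by
  rcases n with _ | m
  · exact ⟨0, Extend.mem_tiltI_zero _ _⟩
  have := isIntegrallyClosed_of_roots hroot
  have := infinite_of_roots hroot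
  obtain ⟨hm, hdeg⟩ := sharpPoly_monic t m G
  obtain ⟨u, hu⟩ := hroot _ hm (by rw [hdeg]; exact pow_ne_zero _ hp.out.ne_zero)
  have hid : WittVector.map (RingHom.id T) G = G := by
    ext i
    simp
  rw [← eval₂_id, map_sharpPoly, RingHom.id_apply, hid] at hu
  obtain ⟨w, hw⟩ := mem_tiltI_of_top ht (trunc_xi_geom t (m + 1) ((WittVector.teichmuller p) u - G))
    (by rw [Nat.add_sub_cancel, hu]; exact dvd_zero _)
  obtain ⟨b, hb⟩ := dvd_sub_of_trunc hw
  refine ⟨u, Extend.mem_tiltI.2 ⟨w, -b, ?_⟩⟩
  linear_combination hb

end Vale.Agent.P202.Mixed.Witt
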