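import Vale.Agent.P202.Mixed.Extend.Basic

/-!
# P202 mixed characteristic: divisibility of Witt vectors by powers of `[t]`

If `(p - [t]) Z` is a multiple of `[t ^ n]` modulo `p ^ n` and the top digit of `Z` is divisible
accordingly, then `Z` itself is a multiple of `[t ^ n]` modulo `p ^ n`.  This is checked at every
valuation subring containing the integrally closed ring, by scaling with the largest digit and
reducing to the residue field.
-/

noncomputable section

namespace Vale.Agent.P202.Mixed.Witt

open WittVector

variable {p : ℕ} [hp : Fact p.Prime]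

section Coeff

variable {R : Type*} [CommRing R]

theorem ghost_formula (x : WittVector p R) (n : ℕ) :
    ghostComponent n x =
      ∑ i ∈ Finset.range (n + 1), (p : R) ^ i * x.coeff i ^ p ^ (n - i) := by
  rw [ghostComponent_apply, wittPolynomial_eq_sum_C_mul_X_pow, map_sum]
  refine Finset.sum_congr rfl fun i _ => ?_
  simp

theorem coeff_teich_mul_of_invertible [Invertible (p : R)] (c : R) (x : WittVector p R) :
    (WittVector.teichmuller p) c * x = WittVector.mk p fun i => c ^ p ^ i * x.coeff i := by
  apply (ghostMap.bijective_of_invertible p R).1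
  funext n
  rw [ghostMap_apply, ghostMap_apply, map_mul, ghostComponent_teichmuller, ghost_formula,
    ghost_formula, Finset.mul_sum]
  refine Finset.sum_congr rfl fun i hi => ?_
  rw [coeff_mk, mul_pow, ← pow_mul, ← pow_add,
    Nat.add_sub_cancel' (Nat.lt_succ_iff.1 (Finset.mem_range.1 hi))]
  ring

/-- The digits of a product with a Teichmüller element. -/
theorem coeff_teich_mul (c : R) (x : WittVector p R) (i : ℕ) :
    ((WittVector.teichmuller p) c * x).coeff i = c ^ p ^ i * x.coeff i := by
  let ι : MvPolynomial (Option ℕ) ℤ →+* MvPolynomial (Option ℕ) ℚ :=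
    MvPolynomial.map (Int.castRingHom ℚ)
  have hι : Function.Injective ι := MvPolynomial.map_injective _ Int.cast_injective
  let x₀ : WittVector p (MvPolynomial (Option ℕ) ℤ) :=
    WittVector.mk p fun j => MvPolynomial.X (some j)
  have : Invertible (p : ℚ) := invertibleOfNonzero (Nat.cast_ne_zero.2 hp.out.ne_zero)
  have : Invertible (p : MvPolynomial (Option ℕ) ℚ) :=
    (Invertible.map (MvPolynomial.C (R := ℚ) (σ := Option ℕ)) (p : ℚ)).copy _ (by simp)
  have h0 : ((WittVector.teichmuller p) (MvPolynomial.X none) * x₀).coeff i =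
      MvPolynomial.X none ^ p ^ i * x₀.coeff i := by
    apply hι
    rw [← map_coeff, map_mul, map_teichmuller, coeff_teich_mul_of_invertible, coeff_mk,
      map_coeff, map_mul, map_pow]
  let f : MvPolynomial (Option ℕ) ℤ →+* R :=
    MvPolynomial.eval₂Hom (Int.castRingHom R) fun o => o.elim c x.coeff
  have hx : WittVector.map f x₀ = x := by
    ext j
    simp [f, x₀, map_coeff]
  have h1 := congrArg f h0
  rw [← map_coeff, map_mul, map_mul, map_teichmuller, hx, map_pow, ← map_coeff f x₀, hx] at h1
  simpa [f] using h1

theorem trunc_eq_iff {n : ℕ} {x y : WittVector p R} :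
    truncate n x = truncate n y ↔ ∀ i < n, x.coeff i = y.coeff i := by
  simp only [TruncatedWittVector.ext_iff, coeff_truncate]
  exact Fin.forall_iff

theorem trunc_map {S : Type*} [CommRing S] (f : R →+* S) {n : ℕ} {x y : WittVector p R}
    (h : truncate n x = truncate n y) :
    truncate n (WittVector.map f x) = truncate n (WittVector.map f y) :=
  trunc_eq_iff.2 fun i hi => by rw [map_coeff, map_coeff, trunc_eq_iff.1 h i hi]

theorem trunc_p_pow [CharP R p] (n : ℕ) :
    truncate n ((p : WittVector p R) ^ n) = 0 := by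
  rw [← map_zero (truncate (p := p) (R := R) n)]
  exact trunc_eq_iff.2 fun i hi => by
    rw [coeff_p_pow_eq_zero p R (Nat.ne_of_lt hi), zero_coeff]

theorem dvd_sub_of_trunc [CharP R p] [PerfectRing R p] {n : ℕ} {x y : WittVector p R}
    (h : truncate n x = truncate n y) : (p : WittVector p R) ^ n ∣ x - y :=
  Ideal.mem_span_singleton.1 ((mem_span_p_pow_iff_le_coeff_eq_zero _ n).2
    fun m hm => (mem_ker_truncate n _).1 (by rw [RingHom.mem_ker, map_sub, h, sub_self]) m hm)

theorem trunc_cancel [IsDomain R] {c : R} (hc : c ≠ 0) {n : ℕ} {x y : WittVector p R}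
    (h : truncate n ((WittVector.teichmuller p) c * x) = truncate n ((WittVector.teichmuller p) c * y)) : truncate n x = truncate n y :=
  trunc_eq_iff.2 fun i hi => by
    have := trunc_eq_iff.1 h i hi
    rw [coeff_teich_mul, coeff_teich_mul] at this
    exact mul_left_cancel₀ (pow_ne_zero _ hc) this

/-- The sum `∑ p ^ i [t ^ (n - 1 - i)]`, which `p - [t]` multiplies to `p ^ n - [t ^ n]`. -/
def geom (t : R) (n : ℕ) : WittVector p R :=
  ∑ i ∈ Finset.range n, (p : WittVector p R) ^ i * (WittVector.teichmuller p) t ^ (n - 1 - i)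

theorem xi_mul_geom (t : R) (n : ℕ) :
    ((p : WittVector p R) - (WittVector.teichmuller p) t) * geom t n = (p : WittVector p R) ^ n - (WittVector.teichmuller p) (t ^ n) := by
  rw [map_pow, geom, mul_comm, geom_sum₂_mul]

theorem map_geom {S : Type*} [CommRing S] (f : R →+* S) (t : R) (n : ℕ) :
    WittVector.map f (geom (p := p) t n) = geom (f t) n := by
  simp [geom, map_teichmuller]

theorem trunc_xi_geom [CharP R p] (t : R) (n : ℕ) (y : WittVector p R) :
    truncate n (((p : WittVector p R) - (WittVector.teichmuller p) t) * (geom t n * y)) =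
      truncate n ((WittVector.teichmuller p) (t ^ n) * -y) := by
  rw [← mul_assoc, xi_mul_geom, sub_mul, map_sub, map_mul, trunc_p_pow, zero_mul, zero_sub,
    mul_neg, map_neg]

theorem geom_coeff_top [CharP R p] (t : R) (n : ℕ) :
    (geom (p := p) t (n + 1)).coeff n = 1 := by
  have h : ∀ i ∈ Finset.range (n + 1), (p : WittVector p R) ^ i * (WittVector.teichmuller p) t ^ (n + 1 - 1 - i) =
      (WittVector.teichmuller p) (t ^ (n - i)) * (p : WittVector p R) ^ i := fun i _ => by
    rw [map_pow, mul_comm, Nat.add_sub_cancel]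
  rw [geom, Finset.sum_congr rfl h, sum_coeff_eq_coeff_sum, Finset.sum_eq_single n]
  · rw [teichmuller_mul_pow_coeff, Nat.sub_self, pow_zero, one_pow]
  · exact fun i _ hi => teichmuller_mul_pow_coeff_of_ne _ hi.symm
  · simp
  · refine fun m => ⟨fun ⟨a, _, ha⟩ ⟨b, _, hb⟩ => Subtype.ext ?_⟩
    have h1 : m = a := of_not_not fun h => ha (teichmuller_mul_pow_coeff_of_ne _ h)
    have h2 : m = b := of_not_not fun h => hb (teichmuller_mul_pow_coeff_of_ne _ h)
    exact h1.symm.trans h2

theorem geom_zero_eq [CharP R p] (n : ℕ) :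
    geom (p := p) (0 : R) (n + 1) = (p : WittVector p R) ^ n := by
  rw [geom, Finset.sum_eq_single n]
  · simp
  · intro i hi hne
    rw [teichmuller_zero, zero_pow (by
      have := Finset.mem_range.1 hi
      omega), mul_zero]
  · simp

end Coeff

section Lifting

variable {T : Type*} [CommRing T] [IsDomain T]

omit [IsDomain T] in
/-- Divisibility in an integrally closed domain can be checked at valuation subrings. -/
theorem dvd_of_valuations [IsIntegrallyClosed T] {K : Type*} [Field K] [Algebra T K]
    [IsFractionRing T K] {a b : T} (hb : b ≠ 0)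
    (h : ∀ V : ValuationSubring K, (algebraMap T K).range ≤ V.toSubring →
      V.valuation (algebraMap T K a) ≤ V.valuation (algebraMap T K b)) : b ∣ a := by
  have hb' : algebraMap T K b ≠ 0 := (map_ne_zero_iff _ (IsFractionRing.injective T K)).2 hb
  let x := algebraMap T K a / algebraMap T K b
  have hx : x ∈ ⨅ V : {V : ValuationSubring K //
      ((algebraMap T K).range : Set K) ⊆ V.toSubring}, V.1.toSubring := by
    rw [Subring.mem_iInf]
    rintro ⟨V, hV⟩
    refine (V.valuation_le_one_iff _).1 ?_
    rw [map_div₀, div_le_one₀ ((Valuation.pos_iff _).2 hb')]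
    exact h V hV
  rw [iInf_valuationSubring_superset, Subring.closure_eq, Subalgebra.mem_toSubring,
    mem_integralClosure_iff] at hx
  obtain ⟨f, hf, hfx⟩ := hx
  have hl : f.map (algebraMap T K).range.subtype ∈ Polynomial.lifts (algebraMap T K) := by
    rw [Polynomial.lifts_iff_coeff_lifts]
    exact fun i => by rw [Polynomial.coeff_map]; exact (f.coeff i).2
  obtain ⟨g, hg, -, hgm⟩ := Polynomial.lifts_and_degree_eq_and_monic hl (hf.map _)
  have hint : IsIntegral T x := ⟨g, hgm, by
    rw [← Polynomial.eval_map, hg, Polynomial.eval_map]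
    exact hfx⟩
  obtain ⟨y, hy⟩ := IsIntegrallyClosed.isIntegral_iff.1 hint
  refine ⟨y, IsFractionRing.injective T K ?_⟩
  rw [map_mul, hy, mul_div_cancel₀ _ hb']

variable [CharP T p] [PerfectRing T p]

omit [IsDomain T] in
theorem exists_root_pow (a : T) (i : ℕ) : ∃ b : T, b ^ p ^ i = a :=
  ⟨(iterateFrobeniusEquiv T p i).symm a, by
    rw [← iterateFrobeniusEquiv_def, RingEquiv.apply_symm_apply]⟩

/-- The lifting lemma: the digits of `Z` are divisible by the powers of `t`. -/
theorem lifting [IsIntegrallyClosed T] {t : T} (ht : t ≠ 0) {n : ℕ} {Z y : WittVector p T}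
    (h : truncate n (((p : WittVector p T) - (WittVector.teichmuller p) t) * Z) = truncate n ((WittVector.teichmuller p) (t ^ n) * y))
    (htop : t ^ (n * p ^ (n - 1)) ∣ Z.coeff (n - 1)) :
    ∀ i < n, t ^ (n * p ^ i) ∣ Z.coeff i := by
  classical
  intro i hi
  refine dvd_of_valuations (K := FractionRing T) (pow_ne_zero _ ht) fun V hV => ?_
  let e : T →+* V :=
    (algebraMap T (FractionRing T)).codRestrict V.toSubring fun a => hV ⟨a, rfl⟩
  choose z hz using fun j => exists_root_pow (p := p) (Z.coeff j) j
  by_contra hlt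
  rw [← hz i, pow_mul, map_pow, map_pow, map_pow, map_pow] at hlt
  replace hlt : V.valuation (e (t ^ n) : FractionRing T) < V.valuation (e (z i) : FractionRing T) := by
    refine lt_of_not_ge fun hle => hlt ?_
    have := pow_le_pow_left' hle (p ^ i)
    rwa [map_pow] at this ⊢
  obtain ⟨j, hj, hmax⟩ := (Finset.range n).exists_max_image
    (fun j => V.valuation (e (z j) : FractionRing T)) ⟨i, Finset.mem_range.2 hi⟩
  rw [Finset.mem_range] at hj
  have hbig : V.valuation (e (t ^ n) : FractionRing T) < V.valuation (e (z j) : FractionRing T) :=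
    hlt.trans_le (hmax i (Finset.mem_range.2 hi))
  obtain ⟨a, ha, ham⟩ := Extend.exists_mul_eq V hbig
  have hc : e (z j) ≠ 0 := fun h0 => not_lt_zero (a := V.valuation (e (t ^ n) : FractionRing T))
    (by simp [h0] at hbig)
  have hc' : (e (z j) : FractionRing T) ≠ 0 := fun h0 => hc (Subtype.ext h0)
  -- the scaled digits
  have hwmem : ∀ k, k < n → (e (z k) : FractionRing T) / e (z j) ∈ V := fun k hk => by
    rw [← V.valuation_le_one_iff, map_div₀, div_le_one₀ ((Valuation.pos_iff _).2 hc')]
    exact hmax k (Finset.mem_range.2 hk)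
  let u : ℕ → V := fun k => if hk : k < n then ⟨_, hwmem k hk⟩ else 0
  have hu : ∀ k < n, e (z k) = e (z j) * u k := fun k hk => Subtype.ext (by
    simp only [u, dif_pos hk]
    change (e (z k) : FractionRing T) = e (z j) * (e (z k) / e (z j))
    rw [mul_div_cancel₀ _ hc'])
  let w : WittVector p V := WittVector.mk p fun k => u k ^ p ^ k
  have hZ : truncate n (WittVector.map e Z) = truncate n ((WittVector.teichmuller p) (e (z j)) * w) :=
    trunc_eq_iff.2 fun k hk => by
      rw [map_coeff, coeff_teich_mul, coeff_mk, ← mul_pow, ← hu k hk, ← map_pow, hz]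
  have h1 : truncate n ((WittVector.teichmuller p) (e (z j)) * (((p : WittVector p V) - (WittVector.teichmuller p) (e t)) * w)) =
      truncate n ((WittVector.teichmuller p) (e (z j)) * ((WittVector.teichmuller p) a * WittVector.map e y)) := by
    have h' := trunc_map e h
    rw [map_mul (WittVector.map e), map_mul (WittVector.map e), map_sub, map_natCast,
      map_teichmuller, map_teichmuller, ha, map_mul (WittVector.teichmuller p), mul_assoc] at h'
    rw [← h', mul_left_comm, map_mul (truncate n), ← hZ, ← map_mul]
  have h2 := trunc_map (IsLocalRing.residue V) (trunc_cancel hc h1)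
  have ht0 : IsLocalRing.residue V (e t) = 0 := by
    rw [IsLocalRing.residue_eq_zero_iff]
    have h3 : e t ^ n ∈ IsLocalRing.maximalIdeal V := by
      rw [← map_pow, ha]
      exact Ideal.mul_mem_left _ _ ham
    exact Ideal.IsPrime.mem_of_pow_mem inferInstance n h3
  rw [map_mul (WittVector.map _), map_mul (WittVector.map _), map_sub, map_natCast,
    map_teichmuller, map_teichmuller, ht0, (IsLocalRing.residue_eq_zero_iff a).2 ham,
    teichmuller_zero, sub_zero, zero_mul] at h2
  have : CharP (IsLocalRing.ResidueField V) p := by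
    have hpV : (p : V) = 0 := Subtype.ext (by
      push_cast
      rw [← map_natCast (algebraMap T (FractionRing T)), CharP.cast_eq_zero, map_zero])
    refine (CharP.charP_iff_prime_eq_zero hp.out).2 ?_
    rw [← map_natCast (IsLocalRing.residue V), hpV, map_zero]
  -- the residue of `w` vanishes below the top digit, which is integral
  have hjtop : j + 1 = n := by
    by_contra hne
    have h4 := trunc_eq_iff.1 h2 (j + 1) (by omega)
    rw [mul_comm, mul_charP_coeff_succ, map_coeff, zero_coeff] at h4
    have h5 : u j = 1 := mul_left_cancel₀ hc (by rw [← hu j hj, mul_one])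
    rw [pow_eq_zero_iff hp.out.ne_zero, coeff_mk, h5, one_pow, map_one] at h4
    exact one_ne_zero h4
  subst hjtop
  obtain ⟨q, hq⟩ := htop
  rw [Nat.add_sub_cancel] at hq
  have h6 : V.valuation (e (z j) : FractionRing T) ^ p ^ j ≤
      V.valuation (e (t ^ (j + 1)) : FractionRing T) ^ p ^ j := by
    rw [← map_pow, ← map_pow, ← SubmonoidClass.coe_pow, ← SubmonoidClass.coe_pow, ← map_pow,
      ← map_pow, hz, hq, ← pow_mul, map_mul, MulMemClass.coe_mul, map_mul]
    exact mul_le_of_le_one_right' (V.valuation_le_one _)
  exact absurd h6 (not_le.2 (pow_lt_pow_left₀ hbig zero_le (pow_ne_zero _ hp.out.ne_zero)))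

/-- The lifting lemma, as a congruence. -/
theorem mem_tiltI_of_top [IsIntegrallyClosed T] {t : T} (ht : t ≠ 0) {n : ℕ}
    {Z y : WittVector p T}
    (h : truncate n (((p : WittVector p T) - (WittVector.teichmuller p) t) * Z) = truncate n ((WittVector.teichmuller p) (t ^ n) * y))
    (htop : t ^ (n * p ^ (n - 1)) ∣ Z.coeff (n - 1)) :
    ∃ w, truncate n (((p : WittVector p T) - (WittVector.teichmuller p) t) * w) = truncate n y := by
  have hd := lifting ht h htop
  choose f hf using hd
  let g : WittVector p T := WittVector.mk p fun i => if hi : i < n then f i hi else 0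
  have hg : truncate n Z = truncate n ((WittVector.teichmuller p) (t ^ n) * g) := trunc_eq_iff.2 fun i hi => by
    rw [coeff_teich_mul, coeff_mk, dif_pos hi, ← pow_mul, ← hf i hi]
  refine ⟨g, trunc_cancel (pow_ne_zero n ht) ?_⟩
  rw [← h, mul_left_comm, map_mul (truncate n) _ Z, map_mul (truncate n), hg]

end Lifting

end Vale.Agent.P202.Mixed.Witt
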